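import Mathlib

/-!
# Row 255 (helper44): finite free cellular resolutions and their compactly supported cochains
-/

set_option autoImplicit false
open Finsupp

noncomputable section

namespace Crest.Agent.N255.Gc

/-- a free cocompact acyclic cellular chain complex -/
structure FR (G : Type) [Group G] (X : ℕ → Type) [∀ n, MulAction G (X n)] where
  d : ∀ n, (X (n + 1) →₀ ℤ) →ₗ[ℤ] (X n →₀ ℤ)
  free : ∀ n (g : G) (x : X n), g • x = x → g = 1
  fin : ∀ n, ∃ s : Set (X n), s.Finite ∧ ∀ x : X n, ∃ g : G, g • x ∈ s
  eqv : ∀ n (g : G) (y : X (n + 1)), d n (single (g • y) 1) = mapDomain (g • ·) (d n (single y 1))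
  exact : ∀ n, Function.Exact (d (n + 1)) (d n)
  exact0 : Function.Exact (d 0) (linearCombination ℤ fun _ : X 0 => (1 : ℤ))
  ne : Nonempty (X 0)

variable {G : Type} [Group G]

theorem mapDomain_smul_apply {Y : Type} [MulAction G Y] (g : G) (c : Y →₀ ℤ) (x : Y) :
    mapDomain (g • ·) c x = c (g⁻¹ • x) := by
  conv_lhs => rw [← smul_inv_smul g x]
  exact mapDomain_apply (MulAction.injective g) c _

/-- only finitely many group elements move a point into a finite set -/
theorem finite_mov {Y : Type} [MulAction G Y] (hf : ∀ (g : G) (x : Y), g • x = x → g = 1) (x : Y)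
    {t : Set Y} (ht : t.Finite) : {g : G | g • x ∈ t}.Finite := by
  refine Set.Finite.preimage (f := fun g : G => g • x) (fun g _ h _ e => ?_) ht
  have := hf (h⁻¹ * g) x (by rw [mul_smul]; exact inv_smul_eq_iff.2 e)
  exact (inv_mul_eq_one.1 this).symm

/-- an equivariant kernel with finite rows has finite columns -/
theorem finite_col {Y Z : Type} [MulAction G Y] [MulAction G Z]
    (hf : ∀ (g : G) (x : Z), g • x = x → g = 1) {s : Set Y} (hs : s.Finite)
    (hc : ∀ y : Y, ∃ g : G, g • y ∈ s) (k : Y → Z →₀ ℤ)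
    (hk : ∀ (g : G) y z, k (g • y) (g • z) = k y z) (z : Z) : {y | k y z ≠ 0}.Finite := by
  have h1 : (⋃ y ∈ s, ((k y).support : Set Z)).Finite := hs.biUnion fun _ _ => Finset.finite_toSet _
  refine (((finite_mov hf z h1).prod hs).image fun p : G × Y => p.1⁻¹ • p.2).subset fun y hy => ?_
  obtain ⟨g, hg⟩ := hc y
  refine ⟨(g, g • y), ⟨?_, hg⟩, inv_smul_smul g y⟩
  simp only [Set.mem_ofPred_eq, Set.mem_iUnion, Finset.mem_coe, mem_support_iff]
  exact ⟨g • y, hg, by rw [hk]; exact hy⟩

namespace FR

variable {X : ℕ → Type} [∀ n, MulAction G (X n)] (R : FR G X)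

theorem d_smul (n : ℕ) (g : G) (y : X (n + 1)) (x : X n) :
    R.d n (single (g • y) 1) (g • x) = R.d n (single y 1) x := by
  rw [R.eqv, mapDomain_smul_apply, inv_smul_smul]

theorem d_map (n : ℕ) (g : G) (c : X (n + 1) →₀ ℤ) :
    R.d n (mapDomain (g • ·) c) = mapDomain (g • ·) (R.d n c) := by
  induction c using Finsupp.induction_linear with
  | zero => simp
  | add a b ha hb => simp only [mapDomain_add, map_add, ha, hb]
  | single y r =>
    rw [mapDomain_single, ← mul_one r, ← smul_eq_mul, ← smul_single, ← smul_single, map_smul,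
      map_smul, R.eqv, mapDomain_smul]

theorem finite_cof (n : ℕ) (x : X n) : {y : X (n + 1) | R.d n (single y 1) x ≠ 0}.Finite := by
  obtain ⟨s, hs, hc⟩ := R.fin (n + 1)
  exact finite_col (R.free n) hs hc (fun y => R.d n (single y 1)) (R.d_smul n) x

/-- the coboundary of a cell -/
def cof (n : ℕ) (x : X n) : X (n + 1) →₀ ℤ :=
  ofSupportFinite (fun y => R.d n (single y 1) x) (R.finite_cof n x)

/-- the coboundary of compactly supported cochains -/
def de (n : ℕ) : (X n →₀ ℤ) →ₗ[ℤ] (X (n + 1) →₀ ℤ) := linearCombination ℤ (R.cof n)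

theorem de_single (n : ℕ) (x : X n) (y : X (n + 1)) :
    R.de n (single x 1) y = R.d n (single y 1) x := by
  rw [de, linearCombination_single, one_smul]; rfl

theorem de_apply (n : ℕ) (c : X n →₀ ℤ) (y : X (n + 1)) :
    R.de n c y = (R.d n (single y 1)).sum fun x a => a * c x := by
  induction c using Finsupp.induction_linear with
  | zero => simp
  | add a b ha hb => simp only [map_add, Finsupp.add_apply, ha, hb, mul_add, Finsupp.sum_add]
  | single x r =>
    classical
    rw [← mul_one r, ← smul_eq_mul, ← smul_single, map_smul, Finsupp.smul_apply, de_single]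
    simp only [Finsupp.smul_apply, single_apply, smul_eq_mul, mul_ite, mul_one, mul_zero]
    rw [Finsupp.sum_ite_eq]
    split_ifs with h
    · exact mul_comm _ _
    · rw [notMem_support_iff.1 h, mul_zero]

theorem de_apply' (n : ℕ) (c : X n →₀ ℤ) (y : X (n + 1)) :
    R.de n c y = linearCombination ℤ c (R.d n (single y 1)) := by
  rw [de_apply, linearCombination_apply]; rfl

/-- a linear map with the transposed matrix is the coboundary -/
theorem eq_de (n : ℕ) {δ : (X n →₀ ℤ) →ₗ[ℤ] (X (n + 1) →₀ ℤ)}
    (h : ∀ x y, δ (single x 1) y = R.d n (single y 1) x) : δ = R.de n :=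
  Finsupp.lhom_ext' fun x => LinearMap.ext_ring (Finsupp.ext fun y => by
    simpa [de_single] using h x y)

theorem de_smul (n : ℕ) (g : G) (x : X n) :
    R.de n (single (g • x) 1) = mapDomain (g • ·) (R.de n (single x 1)) := by
  ext y
  rw [mapDomain_smul_apply, de_single, de_single, ← R.d_smul n g (g⁻¹ • y), smul_inv_smul]

theorem de_de (n : ℕ) (c : X n →₀ ℤ) : R.de (n + 1) (R.de n c) = 0 := by
  ext z
  have h : ∀ b : X (n + 1) →₀ ℤ,
      linearCombination ℤ (R.de n c) b = linearCombination ℤ c (R.d n b) := fun b => by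
    induction b using Finsupp.induction_linear with
    | zero => simp
    | add a b ha hb => simp only [map_add, ha, hb]
    | single y r =>
      rw [← mul_one r, ← smul_eq_mul, ← smul_single, map_smul, map_smul, map_smul,
        linearCombination_single, one_smul, de_apply']
  rw [de_apply', h, (R.exact n).apply_apply_eq_zero, map_zero, Finsupp.zero_apply]

/-- the compactly supported cohomology is `ℤ` in degree four, with trivial action -/
structure PD : Prop where
  h0 : Function.Injective (R.de 0)
  h : ∀ n, n ≠ 3 → Function.Exact (R.de n) (R.de (n + 1))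
  h4 : R.de 4 = 0
  s : ∃ s : (X 4 →₀ ℤ) →+ ℤ, Function.Exact (R.de 3) s ∧ Function.Surjective s ∧
    ∀ (g : G) (x : X 4), s (single (g • x) 1) = s (single x 1)

end FR

/-- the three cohomological clauses -/
def PD4 (G : Type) [Group G] : Prop :=
  (∀ i : ℕ, i ≠ 4 → CategoryTheory.Limits.IsZero (groupCohomology (Rep.leftRegular ℤ G) i)) ∧
    Nonempty (groupCohomology (Rep.leftRegular ℤ G) 4 ≃+ ℤ) ∧
    (∀ g : G, (groupCohomology.functor ℤ G 4).map
        ((Rep.leftRegular ℤ G).leftRegularHom (MonoidAlgebra.single g (1 : ℤ))) =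
      CategoryTheory.CategoryStruct.id (groupCohomology (Rep.leftRegular ℤ G) 4))

end Crest.Agent.N255.Gc

end
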