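import Mathlib

/-!
# Row 255 (helper32): group cohomology from any projective resolution, naturally in the coefficients
-/

set_option autoImplicit false
open CategoryTheory Limits Opposite HomologicalComplex groupCohomology

noncomputable section

namespace Crest.Agent.N255.Gc

universe u
variable {k G : Type u} [CommRing k] [Group G]

/-- precomposition with a chain map -/
def ymap {P Q : ChainComplex (Rep.{u} k G) ℕ} (φ : P ⟶ Q) (A : Rep.{u} k G) :
    Q.linearYonedaObj k A ⟶ P.linearYonedaObj k A :=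
  (unopFunctor _ _).map
    ((((linearYoneda k (Rep k G)).obj A).rightOp.mapHomologicalComplex _).map φ).op

theorem ymap_apply {P Q : ChainComplex (Rep.{u} k G) ℕ} (φ : P ⟶ Q) (A : Rep.{u} k G) (n : ℕ)
    (x : Q.X n ⟶ A) : ((ymap φ A).f n).hom x = φ.f n ≫ x := rfl

theorem quasiIso_ymap {P Q : ChainComplex (Rep.{u} k G) ℕ} (e : HomotopyEquiv P Q)
    (A : Rep.{u} k G) (n : ℕ) : QuasiIsoAt (ymap e.hom A) n := by
  have h : QuasiIsoAt ((((linearYoneda k (Rep k G)).obj A).rightOp.mapHomotopyEquiv e).hom) n :=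
    inferInstance
  exact (quasiIsoAt_unopFunctor_map_iff _ n).2 h

theorem yd_apply (P : ChainComplex (Rep.{u} k G) ℕ) (A : Rep.{u} k G) (i j : ℕ)
    (x : P.X i ⟶ A) : ((P.linearYonedaObj k A).d i j).hom x = P.d j i ≫ x := rfl

/-- postcomposition with a map of coefficients -/
def ycoef (P : ChainComplex (Rep.{u} k G) ℕ) {A B : Rep.{u} k G} (f : A ⟶ B) :
    P.linearYonedaObj k A ⟶ P.linearYonedaObj k B where
  f n := ModuleCat.ofHom (Linear.rightComp k (P.X n) f)
  comm' i j _ := ModuleCat.hom_ext (LinearMap.ext fun x : P.X i ⟶ A =>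
    (Category.assoc (P.d j i) x f).symm)

theorem ycoef_apply (P : ChainComplex (Rep.{u} k G) ℕ) {A B : Rep.{u} k G} (f : A ⟶ B) (n : ℕ)
    (x : P.X n ⟶ A) : ((ycoef P f).f n).hom x = x ≫ f := rfl

/-- the comparison map from inhomogeneous cochains to `Hom (P, A)` -/
def cmp (P : ProjectiveResolution (Rep.trivial k G k)) (A : Rep.{u} k G) :
    inhomogeneousCochains A ⟶ P.complex.linearYonedaObj k A :=
  (inhomogeneousCochainsIso A).hom ≫ ymap (P.homotopyEquiv (Rep.barResolution k G)).hom A

theorem quasiIso_cmp (P : ProjectiveResolution (Rep.trivial k G k)) (A : Rep.{u} k G) (n : ℕ) :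
    QuasiIsoAt (cmp P A) n := by
  have := quasiIso_ymap (P.homotopyEquiv (Rep.barResolution k G)) A n
  have h1 : QuasiIsoAt (inhomogeneousCochainsIso A).hom n := quasiIsoAt_of_isIso _ _
  exact quasiIsoAt_comp _ _ n (hφ := h1) (hφ' := this)

theorem cmp_nat (P : ProjectiveResolution (Rep.trivial k G k)) {A B : Rep.{u} k G} (f : A ⟶ B) :
    cochainsMap (MonoidHom.id G) f ≫ cmp P B = cmp P A ≫ ycoef P.complex f := by
  refine HomologicalComplex.hom_ext _ _ fun n => ModuleCat.hom_ext (LinearMap.ext fun x => ?_)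
  have e : (Rep.freeLiftLEquiv k G (Fin n → G) B).symm (fun g => f.hom (x g)) =
      (Rep.freeLiftLEquiv k G (Fin n → G) A).symm x ≫ f := by
    refine Rep.free_ext _ _ _ _ _ fun i => ?_
    simp [Rep.freeLiftLEquiv, Rep.homLinearEquiv, Rep.homEquiv]
  change ((P.homotopyEquiv (Rep.barResolution k G)).hom.f n ≫
      (Rep.freeLiftLEquiv k G (Fin n → G) B).symm (fun g => f.hom (x g))) =
    ((P.homotopyEquiv (Rep.barResolution k G)).hom.f n ≫
      (Rep.freeLiftLEquiv k G (Fin n → G) A).symm x) ≫ f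
  rw [e]
  exact (Category.assoc _ _ _).symm

/-- group cohomology from `P` -/
def iso (P : ProjectiveResolution (Rep.trivial k G k)) (A : Rep.{u} k G) (n : ℕ) :
    groupCohomology A n ≅ (P.complex.linearYonedaObj k A).homology n :=
  haveI := quasiIso_cmp P A n
  isoOfQuasiIsoAt (cmp P A) n

theorem iso_nat (P : ProjectiveResolution (Rep.trivial k G k)) {A B : Rep.{u} k G} (f : A ⟶ B)
    (n : ℕ) : (functor k G n).map f ≫ (iso P B n).hom =
      (iso P A n).hom ≫ homologyMap (ycoef P.complex f) n := by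
  change homologyMap (cochainsMap (MonoidHom.id G) f) n ≫ homologyMap (cmp P B) n =
    homologyMap (cmp P A) n ≫ homologyMap (ycoef P.complex f) n
  rw [← homologyMap_comp, ← homologyMap_comp, cmp_nat]

theorem map_eq_id (P : ProjectiveResolution (Rep.trivial k G k)) {A : Rep.{u} k G} (f : A ⟶ A)
    (n : ℕ) (h : homologyMap (ycoef P.complex f) n = 𝟙 _) :
    (functor k G n).map f = 𝟙 (groupCohomology A n) := by
  have := iso_nat P f n
  rw [h, Category.comp_id] at this
  exact (cancel_mono (iso P A n).hom).1 (this.trans (Category.id_comp _).symm)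

/-! ### homology of a cochain complex of modules, by elements -/

section elem
variable {Y : CochainComplex (ModuleCat.{u} k) ℕ}

theorem isZero_zero (h : Function.Injective (Y.d 0 1).hom) : IsZero (Y.homology 0) := by
  rw [← exactAt_iff_isZero_homology, exactAt_iff' _ 0 0 1 (by simp) (by simp),
    ShortComplex.moduleCat_exact_iff]
  intro x hx
  refine ⟨0, ?_⟩
  rw [map_zero]
  exact (h (a₁ := x) (a₂ := 0) (by rw [map_zero]; exact hx)).symm

theorem isZero_succ (n : ℕ) (h : Function.Exact (Y.d n (n + 1)).hom (Y.d (n + 1) (n + 2)).hom) :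
    IsZero (Y.homology (n + 1)) := by
  rw [← exactAt_iff_isZero_homology, exactAt_iff' _ n (n + 1) (n + 2) (by simp) (by simp),
    ShortComplex.moduleCat_exact_iff]
  intro x hx
  exact (h x).1 hx

theorem pOp_d (i j : ℕ) (y : Y.X i) : (Y.pOpcycles j).hom ((Y.d i j).hom y) = 0 := by
  rw [← ModuleCat.comp_apply, d_pOpcycles]; rfl

/-- a chain map which moves every cochain by a coboundary is the identity in cohomology -/
theorem homologyMap_eq_id (a : Y ⟶ Y) (i j : ℕ)
    (h : ∀ x : Y.X j, ∃ y, (Y.d i j).hom y = (a.f j).hom x - x) : homologyMap a j = 𝟙 _ := by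
  have e : opcyclesMap a j = 𝟙 _ := by
    rw [← cancel_epi (Y.pOpcycles j), p_opcyclesMap, Category.comp_id]
    refine ModuleCat.hom_ext (LinearMap.ext fun x => ?_)
    obtain ⟨y, hy⟩ := h x
    have := pOp_d i j y
    rw [hy, map_sub, sub_eq_zero] at this
    exact this
  rw [← cancel_mono (Y.homologyι j), homologyι_naturality, e, Category.comp_id, Category.id_comp]

/-- top cohomology as a cokernel -/
theorem nonempty_top (n : ℕ) {M : Type u} [AddCommGroup M] [Module k M] (s : Y.X (n + 1) →ₗ[k] M)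
    (hs : Function.Exact (Y.d n (n + 1)).hom s) (hsurj : Function.Surjective s)
    (h0 : Y.d (n + 1) (n + 2) = 0) : Nonempty (Y.homology (n + 1) ≃ₗ[k] M) := by
  have := Y.isIso_homologyι (n + 1) (n + 2) (by simp) h0
  let t : Y.opcycles (n + 1) ⟶ ModuleCat.of k M :=
    Y.descOpcycles (ModuleCat.ofHom s) n (by simp)
      (ModuleCat.hom_ext (LinearMap.ext fun y => hs.apply_apply_eq_zero y))
  have ht : ∀ x, t.hom ((Y.pOpcycles (n + 1)).hom x) = s x := fun x => by
    rw [← ModuleCat.comp_apply, p_descOpcycles]; rfl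
  have hp : Function.Surjective (Y.pOpcycles (n + 1)).hom :=
    (ModuleCat.epi_iff_surjective _).1 inferInstance
  have hb : Function.Bijective t.hom := by
    refine ⟨(injective_iff_map_eq_zero _).2 fun z hz => ?_, fun m => ?_⟩
    · obtain ⟨x, rfl⟩ := hp z
      rw [ht] at hz
      obtain ⟨y, rfl⟩ := (hs x).1 hz
      exact pOp_d _ _ y
    · obtain ⟨x, rfl⟩ := hsurj m
      exact ⟨_, ht x⟩
  exact ⟨(asIso (Y.homologyι (n + 1))).toLinearEquiv.trans (LinearEquiv.ofBijective t.hom hb)⟩

end elem

end Crest.Agent.N255.Gc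

end
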