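import Crest.Agent.N255.Gc.Defs
import Crest.Agent.N255.Gc.Nat

/-!
# Row 255 (helper44): `H^*(G; ℤG)` is the compactly supported cohomology of a free cocompact resolution
-/

set_option autoImplicit false
open CategoryTheory Limits HomologicalComplex Finsupp

noncomputable section

namespace Crest.Agent.N255.Gc

attribute [local instance 2000] Rep.hV2

variable {G : Type} [Group G]

/-- `Hom_G (P, A)`, with the instances of a general ground ring -/
abbrev ycx {k : Type} [CommRing k] (P : ChainComplex (Rep.{0} k G) ℕ) (A : Rep.{0} k G) :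
    CochainComplex (ModuleCat.{0} k) ℕ := P.linearYonedaObj k A

/-- the permutation representation on chains -/
def prm (G : Type) [Group G] (Y : Type) [MulAction G Y] : Representation ℤ G (Y →₀ ℤ) where
  toFun g := lmapDomain ℤ ℤ (g • ·)
  map_one' := LinearMap.ext fun c => by
    simp only [one_smul, lmapDomain_apply, Module.End.one_apply]; exact mapDomain_id
  map_mul' g h := LinearMap.ext fun c => by
    simp only [lmapDomain_apply, Module.End.mul_apply, ← mapDomain_comp, mul_smul]; rfl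

/-- the same as an object of `Rep` -/
abbrev rp (G : Type) [Group G] (Y : Type) [MulAction G Y] : Rep.{0} ℤ G := Rep.of (prm G Y)

section one
variable {Y : Type} [MulAction G Y]

theorem prm_apply (g : G) (c : Y →₀ ℤ) : prm G Y g c = mapDomain (g • ·) c := rfl

theorem prm_single (g : G) (y : Y) (r : ℤ) : prm G Y g (single y r) = single (g • y) r :=
  mapDomain_single

/-- a map out of a permutation representation from equivariant values -/
def mkH {A : Rep.{0} ℤ G} (v : Y → A) (hv : ∀ (g : G) y, v (g • y) = A.ρ g (v y)) : rp G Y ⟶ A :=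
  Rep.ofHom ⟨linearCombination ℤ v, fun g => Finsupp.lhom_ext' fun y => LinearMap.ext_ring (by
    simp [prm_single, hv])⟩

theorem mkH_single {A : Rep.{0} ℤ G} (v : Y → A) (hv : ∀ (g : G) y, v (g • y) = A.ρ g (v y))
    (y : Y) : (mkH v hv).hom (single y 1) = v y := by
  change linearCombination ℤ v (single y 1) = v y
  rw [linearCombination_single]
  exact A.hV2.one_smul (v y)

theorem rp_ext {A : Rep.{0} ℤ G} {f f' : rp G Y ⟶ A}
    (h : ∀ y, f.hom (single y 1) = f'.hom (single y 1)) : f = f' := by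
  refine Rep.hom_ext (Representation.IntertwiningMap.ext ?_)
  exact Finsupp.lhom_ext' fun y => LinearMap.ext_ring (h y)

theorem hom_smul {A : Rep.{0} ℤ G} (f : rp G Y ⟶ A) (g : G) (y : Y) :
    f.hom (single (g • y) 1) = A.ρ g (f.hom (single y 1)) := by
  rw [← Rep.hom_comm_apply]; exact congrArg f.hom (prm_single g y 1).symm

theorem exists_sec (hf : ∀ (g : G) (y : Y), g • y = y → g = 1) : ∃ (o : Y → Y) (γ : Y → G),
    (∀ y, γ y • o y = y) ∧ (∀ (g : G) y, o (g • y) = o y) ∧ ∀ (g : G) y, γ (g • y) = g * γ y := by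
  let o : Y → Y := fun y => (Quotient.mk (MulAction.orbitRel G Y) y).out
  have h1 : ∀ y, ∃ g : G, g • o y = y := fun y =>
    (MulAction.orbitRel G Y).symm (Quotient.mk_out (s := MulAction.orbitRel G Y) y)
  have h2 : ∀ (g : G) y, o (g • y) = o y := fun g y =>
    congrArg Quotient.out (Quotient.sound (s := MulAction.orbitRel G Y) ⟨g, rfl⟩)
  choose γ hγ using h1
  refine ⟨o, γ, hγ, h2, fun g y => ?_⟩
  have h3 := hγ (g • y)
  rw [h2] at h3
  have := hf ((g * γ y)⁻¹ * γ (g • y)) (o y) (by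
    rw [mul_smul, h3, inv_smul_eq_iff, mul_smul, hγ])
  exact (inv_mul_eq_one.1 this).symm

theorem projective_rp (hf : ∀ (g : G) (y : Y), g • y = y → g = 1) : Projective (rp G Y) where
  factors {A B} f e he := by
    obtain ⟨o, γ, h1, h2, h3⟩ := exists_sec hf
    choose s hs using (Rep.epi_iff_surjective e).1 he
    refine ⟨mkH (fun y => A.ρ (γ y) (s (f.hom (single (o y) 1)))) fun g y => ?_, rp_ext fun y => ?_⟩
    · rw [h2, h3, map_mul]; rfl
    · rw [Rep.hom_comp, Representation.IntertwiningMap.comp_apply, mkH_single, Rep.hom_comm_apply,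
        hs, ← hom_smul, h1]

theorem coeff_reg (g h : G) (a : MonoidAlgebra ℤ G) :
    ((Rep.leftRegular ℤ G).ρ g a).coeff h = a.coeff (g⁻¹ * h) := by
  simp

theorem coeff_right (g : G) (a : MonoidAlgebra ℤ G) :
    (((Rep.leftRegular ℤ G).leftRegularHom (MonoidAlgebra.single g (1 : ℤ))).hom a).coeff 1 =
      a.coeff g⁻¹ := by
  classical
  induction a using MonoidAlgebra.induction_linear with
  | zero => simp
  | add a b ha hb => simp only [map_add, MonoidAlgebra.coeff_add, Finsupp.add_apply, ha, hb]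
  | single h r =>
    rw [Rep.leftRegularHom_hom_single]
    simp [Finsupp.single_apply, mul_eq_one_iff_eq_inv]

theorem coeff_hom (f : rp G Y ⟶ Rep.leftRegular ℤ G) (g : G) (y : Y) :
    (f.hom (single y 1)).coeff g = (f.hom (single (g⁻¹ • y) 1)).coeff 1 := by
  rw [hom_smul, coeff_reg, inv_inv, mul_one]

variable (hf : ∀ (g : G) (y : Y), g • y = y → g = 1)
  (hc : ∃ s : Set Y, s.Finite ∧ ∀ y : Y, ∃ g : G, g • y ∈ s)

include hc in
theorem finite_dual (f : rp G Y ⟶ Rep.leftRegular ℤ G) :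
    {y : Y | (f.hom (single y 1)).coeff 1 ≠ 0}.Finite := by
  obtain ⟨s, hs, hc⟩ := hc
  refine finite_col (G := G) (Z := G) (fun g x h => mul_eq_right.1 h) hs hc
    (fun y => (f.hom (single y 1)).coeff) (fun g y z => ?_) 1
  rw [hom_smul, coeff_reg, smul_eq_mul, inv_mul_cancel_left]

/-- equivariant maps to `ℤG` are compactly supported cochains -/
def dualL : (rp G Y ⟶ Rep.leftRegular ℤ G) →ₗ[ℤ] (Y →₀ ℤ) where
  toFun f := ofSupportFinite (fun y => (f.hom (single y 1)).coeff 1) (finite_dual hc f)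
  map_add' _ _ := Finsupp.ext fun _ => rfl
  map_smul' _ _ := Finsupp.ext fun _ => rfl

theorem dualL_apply (f : rp G Y ⟶ Rep.leftRegular ℤ G) (y : Y) :
    dualL hc f y = (f.hom (single y 1)).coeff 1 := rfl

include hf in
theorem dualL_bij : Function.Bijective (dualL hc) := by
  refine ⟨fun f f' h => rp_ext fun y => MonoidAlgebra.ext (Finsupp.ext fun g => ?_), fun c => ?_⟩
  · rw [coeff_hom, coeff_hom f', ← dualL_apply hc, ← dualL_apply hc, h]
  · have hfin : ∀ y : Y, {g : G | c (g⁻¹ • y) ≠ 0}.Finite := fun y =>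
      ((finite_mov hf y c.support.finite_toSet).image fun g : G => g⁻¹).subset fun g hg =>
        ⟨g⁻¹, mem_support_iff.2 hg, inv_inv g⟩
    refine ⟨mkH (fun y => MonoidAlgebra.ofCoeff (ofSupportFinite (fun g => c (g⁻¹ • y)) (hfin y)))
      fun g y => MonoidAlgebra.ext (Finsupp.ext fun h => ?_), Finsupp.ext fun y => ?_⟩
    · rw [coeff_reg]
      change c (h⁻¹ • g • y) = c ((g⁻¹ * h)⁻¹ • y)
      rw [mul_inv_rev, inv_inv, mul_smul]
    · rw [dualL_apply, mkH_single]
      change c ((1 : G)⁻¹ • y) = c y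
      rw [inv_one, one_smul]

theorem dualL_right (g : G) (f : rp G Y ⟶ Rep.leftRegular ℤ G) :
    dualL hc (f ≫ (Rep.leftRegular ℤ G).leftRegularHom (MonoidAlgebra.single g (1 : ℤ))) =
      mapDomain (g⁻¹ • ·) (dualL hc f) := by
  ext y
  rw [mapDomain_smul_apply, dualL_apply, dualL_apply, Rep.hom_comp,
    Representation.IntertwiningMap.comp_apply, coeff_right, coeff_hom]

end one

namespace FR

variable {X : ℕ → Type} [∀ n, MulAction G (X n)] (R : FR G X)

/-- the boundary as a map of representations -/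
def dH (n : ℕ) : rp G (X (n + 1)) ⟶ rp G (X n) :=
  Rep.ofHom ⟨R.d n, fun g => LinearMap.ext fun c => R.d_map n g c⟩

theorem dH_apply (n : ℕ) (c : X (n + 1) →₀ ℤ) : (R.dH n).hom c = R.d n c := rfl

/-- the complex of representations -/
def cx : ChainComplex (Rep.{0} ℤ G) ℕ :=
  ChainComplex.of (fun n => rp G (X n)) R.dH fun n =>
    rp_ext fun _ => (R.exact n).apply_apply_eq_zero _

theorem cx_d (n : ℕ) : R.cx.d (n + 1) n = R.dH n :=
  ChainComplex.of_d (fun n => rp G (X n)) R.dH n

/-- the augmentation -/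
def eps (G : Type) [Group G] (Y : Type) [MulAction G Y] : rp G Y ⟶ Rep.trivial ℤ G ℤ :=
  mkH (fun _ => (1 : ℤ)) fun _ _ => rfl

/-- the augmentation as a chain map -/
def pi : R.cx ⟶ (ChainComplex.single₀ (Rep.{0} ℤ G)).obj (Rep.trivial ℤ G ℤ) :=
  (R.cx.toSingle₀Equiv _).symm ⟨eps G (X 0), by
    rw [R.cx_d 0]; exact rp_ext fun _ => R.exact0.apply_apply_eq_zero _⟩

set_option backward.isDefEq.respectTransparency false in
theorem quasiIso_pi : QuasiIso R.pi where
  quasiIsoAt m := by
    cases m with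
    | zero =>
      rw [ChainComplex.quasiIsoAt₀_iff, ShortComplex.quasiIso_iff_of_zeros' _ rfl rfl rfl]
      have e : R.pi.f 0 = eps G (X 0) := by simp [pi]
      constructor
      · apply (forget₂ _ (ModuleCat ℤ)).reflects_exact_of_faithful
        rw [ShortComplex.moduleCat_exact_iff]
        intro x hx
        change (R.pi.f 0).hom x = 0 at hx
        rw [e] at hx
        obtain ⟨y, hy⟩ := (R.exact0 x).1 hx
        refine ⟨y, ?_⟩
        change (R.cx.d 1 0).hom y = x
        rw [R.cx_d 0]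
        exact hy
      · change Epi (R.pi.f 0)
        rw [e, Rep.epi_iff_surjective]
        intro r
        obtain ⟨x⟩ := R.ne
        refine ⟨single x r, ?_⟩
        change linearCombination ℤ (fun _ : X 0 => (1 : ℤ)) (single x r) = r
        simp
    | succ m =>
      rw [quasiIsoAt_iff_exactAt' (hL := ChainComplex.exactAt_succ_single_obj ..),
        exactAt_iff' _ (m + 2) (m + 1) m (by simp) (by simp)]
      apply (forget₂ _ (ModuleCat ℤ)).reflects_exact_of_faithful
      rw [ShortComplex.moduleCat_exact_iff]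
      intro x hx
      change (R.cx.d (m + 1) m).hom x = 0 at hx
      rw [R.cx_d] at hx
      obtain ⟨y, hy⟩ := (R.exact m x).1 hx
      refine ⟨y, ?_⟩
      change (R.cx.d (m + 1 + 1) (m + 1)).hom y = x
      rw [R.cx_d]
      exact hy

/-- the projective resolution -/
def res : ProjectiveResolution (Rep.trivial ℤ G ℤ) where
  complex := R.cx
  projective n := projective_rp (R.free n)
  π := R.pi
  quasiIso := R.quasiIso_pi

/-- `Hom_G (C_n, ℤG) = C_c^n` -/
def du (n : ℕ) : (rp G (X n) ⟶ Rep.leftRegular ℤ G) ≃ₗ[ℤ] (X n →₀ ℤ) :=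
  LinearEquiv.ofBijective (dualL (R.fin n)) (dualL_bij (R.free n) _)

theorem du_d (n : ℕ) (f : rp G (X n) ⟶ Rep.leftRegular ℤ G) :
    R.du (n + 1) (R.dH n ≫ f) = R.de n (R.du n f) := by
  ext y
  have h : ∀ b : X n →₀ ℤ, (f.hom b).coeff 1 = linearCombination ℤ (R.du n f) b := fun b => by
    induction b using Finsupp.induction_linear with
    | zero => simp
    | add a b ha hb => simp only [map_add, MonoidAlgebra.coeff_add, Finsupp.add_apply, ha, hb]
    | single x r =>
      rw [← mul_one r, ← smul_eq_mul, ← smul_single, map_smul, map_smul, linearCombination_single,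
        one_smul]
      rfl
  rw [de_apply', ← h]
  rfl

/-- the cochain complex `Hom_G (C_*, ℤG)` -/
abbrev yc : CochainComplex (ModuleCat.{0} ℤ) ℕ := ycx R.res.complex (Rep.leftRegular ℤ G)

theorem yc_d (n : ℕ) (f : rp G (X n) ⟶ Rep.leftRegular ℤ G) :
    R.du (n + 1) ((R.yc.d n (n + 1)).hom f) = R.de n (R.du n f) := by
  rw [← du_d, ← R.cx_d]; rfl

theorem yc_exact (n : ℕ) (h : Function.Exact (R.de n) (R.de (n + 1))) :
    Function.Exact (R.yc.d n (n + 1)).hom (R.yc.d (n + 1) (n + 2)).hom := fun f => by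
  refine (R.du (n + 1 + 1)).map_eq_zero_iff.symm.trans
    ((congrArg (· = 0) (R.yc_d (n + 1) f)).to_iff.trans ((h _).trans ⟨?_, ?_⟩))
  · rintro ⟨c, hc⟩
    exact ⟨(R.du n).symm c, (R.du (n + 1)).injective (by rw [yc_d, LinearEquiv.apply_symm_apply, hc])⟩
  · rintro ⟨g, rfl⟩
    exact ⟨R.du n g, (R.yc_d n g).symm⟩

/-- a functional on cochains, on `Hom_G (C_n, ℤG)` -/
def sL (n : ℕ) (s : (X n →₀ ℤ) →+ ℤ) : R.yc.X n →ₗ[ℤ] ℤ :=
  (s.comp (R.du n).toAddEquiv.toAddMonoidHom).toIntLinearMap

theorem sL_exact (n : ℕ) {s : (X (n + 1) →₀ ℤ) →+ ℤ} (hs : Function.Exact (R.de n) s) :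
    Function.Exact (R.yc.d n (n + 1)).hom (R.sL (n + 1) s) := fun f => by
  refine (hs (R.du (n + 1) f)).trans ⟨?_, ?_⟩
  · rintro ⟨c, hc⟩
    exact ⟨(R.du n).symm c, (R.du (n + 1)).injective (by rw [yc_d, LinearEquiv.apply_symm_apply, hc])⟩
  · rintro ⟨g, rfl⟩
    exact ⟨R.du n g, (R.yc_d n g).symm⟩

theorem isZero_0 (h : Function.Injective (R.de 0)) :
    IsZero (groupCohomology (Rep.leftRegular ℤ G) 0) :=
  IsZero.of_iso (isZero_zero (Y := R.yc) fun f f' e => (R.du 0).injective (h
    ((R.yc_d 0 f).symm.trans ((congrArg (R.du (0 + 1)) e).trans (R.yc_d 0 f'))))) (iso R.res _ 0)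

theorem isZero_s (n : ℕ) (h : Function.Exact (R.de n) (R.de (n + 1))) :
    IsZero (groupCohomology (Rep.leftRegular ℤ G) (n + 1)) :=
  IsZero.of_iso (isZero_succ (Y := R.yc) n (R.yc_exact n h)) (iso R.res _ (n + 1))

theorem top (n : ℕ) {s : (X (n + 1) →₀ ℤ) →+ ℤ} (hs : Function.Exact (R.de n) s)
    (hsurj : Function.Surjective s) (h0 : R.de (n + 1) = 0) :
    Nonempty (groupCohomology (Rep.leftRegular ℤ G) (n + 1) ≃+ ℤ) := by
  obtain ⟨e⟩ := nonempty_top (Y := R.yc) n _ (R.sL_exact n hs)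
    (hsurj.comp (R.du (n + 1)).surjective)
    (ModuleCat.hom_ext (LinearMap.ext fun f => (R.du (n + 1 + 1)).injective
      ((R.yc_d (n + 1) f).trans ((LinearMap.congr_fun h0 _).trans (map_zero (R.du (n + 1 + 1))).symm))))
  exact ⟨((iso R.res _ (n + 1)).toLinearEquiv.trans e).toAddEquiv⟩

theorem act (n : ℕ) {s : (X (n + 1) →₀ ℤ) →+ ℤ} (hs : Function.Exact (R.de n) s)
    (hinv : ∀ (g : G) x, s (single (g • x) 1) = s (single x 1)) (g : G) :
    (groupCohomology.functor ℤ G (n + 1)).map
      ((Rep.leftRegular ℤ G).leftRegularHom (MonoidAlgebra.single g (1 : ℤ))) =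
      𝟙 (groupCohomology (Rep.leftRegular ℤ G) (n + 1)) := by
  have hm : ∀ (g : G) (c : X (n + 1) →₀ ℤ), s (mapDomain (g • ·) c) = s c := fun g c => by
    induction c using Finsupp.induction_linear with
    | zero => simp
    | add a b ha hb => simp only [mapDomain_add, map_add, ha, hb]
    | single x r =>
      rw [mapDomain_single, ← mul_one r, ← smul_eq_mul, ← smul_single, ← smul_single, map_zsmul,
        map_zsmul, hinv]
  refine map_eq_id R.res _ (n + 1) (homologyMap_eq_id (Y := R.yc) _ n (n + 1) fun f =>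
    (R.sL_exact n hs _).1 ((map_sub (R.sL (n + 1) s) _ _).trans (sub_eq_zero.2 ?_)))
  exact (congrArg s (dualL_right (R.fin (n + 1)) g f)).trans (hm g⁻¹ _)

end FR

/-- **the cohomological clauses** -/
theorem pd4 {X : ℕ → Type} [∀ n, MulAction G (X n)] (R : FR G X) (h : R.PD) : PD4 G := by
  obtain ⟨s, hs, hsurj, hinv⟩ := h.s
  refine ⟨fun i hi => ?_, R.top 3 hs hsurj h.h4, R.act 3 hs hinv⟩
  cases i with
  | zero => exact R.isZero_0 h.h0
  | succ n => exact R.isZero_s n (h.h n fun e => hi (by rw [e]))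

end Crest.Agent.N255.Gc

end
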